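import Vale.Agent.P263B90.Susp
import Vale.Agent.P263B15.Rows

/-!
# The row on the homology of a suspension
-/

namespace Vale.Agent.P263B90

open Vale.Agent.P263B15

theorem susph : SUSPH := fun _ _ _ _ _ _ S =>
  ⟨susp_rz_zero S, fun _ => (susp_rz_succ S).2, fun _ => susp_sc S⟩

end Vale.Agent.P263B90
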