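import Vale.Agent.P263.AD.FreuPath

/-!
# The connecting relation of the Mayer-Vietoris sequence

`Cn U₁ U₂ z y` : the class of the cycle `y` of `U₁ ∩ U₂` is the image of the class of the cycle
`z` of `X = U₁ ∪ U₂` under the connecting map.
-/

open Topology Set Vale.Agent.P246.T Vale.Agent.P246.T.FM Vale.Agent.P263.AD.Freu Vale.Agent.P263

namespace Vale.Agent.P263B90

variable {X : Type} [TopologicalSpace X] {n : ℕ} {U₁ U₂ : Set X}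

/-- the connecting relation -/
def Cn (U₁ U₂ : Set X) (z : Ch (n + 1) X) (y : Ch n ↥(U₁ ∩ U₂)) : Prop :=
  ∃ (e₁ : Ch (n + 1) U₁) (e₂ : Ch (n + 1) U₂),
    Hg z (push (PR.inc U₁) (n + 1) e₁ - push (PR.inc U₂) (n + 1) e₂) ∧
    bd n e₁ = push (sub (inter_subset_left : U₁ ∩ U₂ ⊆ U₁)) n y ∧
    bd n e₂ = push (sub (inter_subset_right : U₁ ∩ U₂ ⊆ U₂)) n y

theorem sub_injective {A B : Set X} (h : A ⊆ B) : Function.Injective (sub h) :=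
  Set.inclusion_injective h

theorem Cn.cyc_right {z : Ch (n + 1) X} {y : Ch n ↥(U₁ ∩ U₂)} (h : Cn U₁ U₂ z y) :
    RedCyc n y := by
  obtain ⟨e₁, -, -, h1, -⟩ := h
  refine redCyc_of_push (sub_injective (inter_subset_left : U₁ ∩ U₂ ⊆ U₁)) ?_
  rw [← h1]
  exact redCyc_bd n e₁

theorem Cn.cyc_left {z : Ch (n + 1) X} {y : Ch n ↥(U₁ ∩ U₂)} (h : Cn U₁ U₂ z y) :
    RedCyc (n + 1) z := by
  obtain ⟨e₁, e₂, h0, h1, h2⟩ := h
  refine h0.redCyc ?_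
  change bd n _ = 0
  rw [map_sub, push_bd, push_bd, h1, h2, push_inc_sub, push_inc_sub, sub_self]

theorem Cn.congr {z z' : Ch (n + 1) X} {y y' : Ch n ↥(U₁ ∩ U₂)} (h : Cn U₁ U₂ z y)
    (hz : Hg z' z) (hy : Hg y' y) : Cn U₁ U₂ z' y' := by
  obtain ⟨e₁, e₂, h0, h1, h2⟩ := h
  obtain ⟨b, hb⟩ := hy
  refine ⟨e₁ + push (sub inter_subset_left) (n + 1) b, e₂ + push (sub inter_subset_right) (n + 1) b,
    hz.trans (h0.trans (Hg.of_eq ?_)), ?_, ?_⟩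
  · rw [map_add, map_add, push_inc_sub, push_inc_sub]
    abel
  · rw [map_add, push_bd, hb, h1, map_sub]
    abel
  · rw [map_add, push_bd, hb, h2, map_sub]
    abel

theorem Cn.zero : Cn U₁ U₂ (0 : Ch (n + 1) X) 0 :=
  ⟨0, 0, Hg.of_eq (by rw [map_zero, map_zero, sub_zero]), by rw [map_zero, map_zero],
    by rw [map_zero, map_zero]⟩

theorem Cn.add {z z' : Ch (n + 1) X} {y y' : Ch n ↥(U₁ ∩ U₂)} (h : Cn U₁ U₂ z y)
    (h' : Cn U₁ U₂ z' y') : Cn U₁ U₂ (z + z') (y + y') := by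
  obtain ⟨e₁, e₂, h0, h1, h2⟩ := h
  obtain ⟨f₁, f₂, k0, k1, k2⟩ := h'
  refine ⟨e₁ + f₁, e₂ + f₂, (h0.add k0).trans (Hg.of_eq ?_), ?_, ?_⟩
  · rw [map_add, map_add]
    abel
  · rw [map_add, map_add, h1, k1]
  · rw [map_add, map_add, h2, k2]

theorem Cn.sub {z z' : Ch (n + 1) X} {y y' : Ch n ↥(U₁ ∩ U₂)} (h : Cn U₁ U₂ z y)
    (h' : Cn U₁ U₂ z' y') : Cn U₁ U₂ (z - z') (y - y') := by
  obtain ⟨e₁, e₂, h0, h1, h2⟩ := h
  obtain ⟨f₁, f₂, k0, k1, k2⟩ := h'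
  refine ⟨e₁ - f₁, e₂ - f₂, (h0.sub k0).trans (Hg.of_eq ?_), ?_, ?_⟩
  · rw [map_sub, map_sub]
    abel
  · rw [map_sub, map_sub, h1, k1]
  · rw [map_sub, map_sub, h2, k2]

theorem hg_smul {c c' : Ch n X} (h : Hg c c') (m : ℤ) : Hg (m • c) (m • c') := by
  obtain ⟨b, hb⟩ := h
  exact ⟨m • b, by rw [map_smul, hb, smul_sub]⟩

theorem Cn.smul {z : Ch (n + 1) X} {y : Ch n ↥(U₁ ∩ U₂)} (h : Cn U₁ U₂ z y) (m : ℤ) :
    Cn U₁ U₂ (m • z) (m • y) := by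
  obtain ⟨e₁, e₂, h0, h1, h2⟩ := h
  refine ⟨m • e₁, m • e₂, (hg_smul h0 m).trans (Hg.of_eq ?_), ?_, ?_⟩
  · rw [map_smul, map_smul, smul_sub]
  · rw [map_smul, map_smul, h1]
  · rw [map_smul, map_smul, h2]

/-- every cycle of the union has a connecting cycle -/
theorem exists_cn (h₁ : IsOpen U₁) (h₂ : IsOpen U₂) (hc : U₁ ∪ U₂ = univ) (z : Ch (n + 1) X)
    (hz : RedCyc (n + 1) z) : ∃ y : Ch n ↥(U₁ ∩ U₂), Cn U₁ U₂ z y := by
  obtain ⟨S, hS⟩ := SD.main X univ U₁ U₂ ⟨U₁, h₁, inter_univ _⟩ ⟨U₂, h₂, inter_univ _⟩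
    hc.symm.subset (n + 1) z (mem_univ_con _ _)
  obtain ⟨a, ha, w, hw, haw⟩ := Submodule.mem_sup.1 hS
  obtain ⟨e₁, rfl⟩ := PR.exists_push_inc ha
  obtain ⟨e₂, rfl⟩ := PR.exists_push_inc hw
  have h3 : push (PR.inc U₁) n (bd n e₁) + push (PR.inc U₂) n (bd n e₂) = 0 := by
    rw [← push_bd, ← push_bd, ← map_add, haw, S.s_bd, show bd n z = 0 from hz, map_zero]
  have h4 : push (PR.inc U₁) n (bd n e₁) ∈ Con (U₁ ∩ U₂) n := by
    refine con_inter (PR.push_inc_mem _) ?_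
    rw [eq_neg_of_add_eq_zero_left h3]
    exact neg_mem (PR.push_inc_mem _)
  obtain ⟨y, hy⟩ := PR.exists_push_inc h4
  refine ⟨y, e₁, -e₂, (hg_sd S hz).trans (Hg.of_eq ?_), ?_, ?_⟩
  · rw [map_neg, sub_neg_eq_add, haw]
  · apply PR.push_inc_injective n
    rw [push_inc_sub, hy]
  · apply PR.push_inc_injective n
    rw [push_inc_sub, hy, map_neg, map_neg]
    exact (eq_neg_of_add_eq_zero_left h3).symm

/-- the connecting map is onto if both sets are acyclic -/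
theorem exists_cn_left (a₁ : RZ U₁ n) (a₂ : RZ U₂ n) (y : Ch n ↥(U₁ ∩ U₂)) (hy : RedCyc n y) :
    ∃ z : Ch (n + 1) X, Cn U₁ U₂ z y := by
  obtain ⟨e₁, h1⟩ := a₁ _ (redCyc_push (sub (inter_subset_left : U₁ ∩ U₂ ⊆ U₁)) hy)
  obtain ⟨e₂, h2⟩ := a₂ _ (redCyc_push (sub (inter_subset_right : U₁ ∩ U₂ ⊆ U₂)) hy)
  exact ⟨_, e₁, e₂, Hg.refl _, h1, h2⟩

/-- the connecting map is injective if both sets are acyclic -/
theorem Cn.hg_left (a₁ : RZ U₁ (n + 1)) (a₂ : RZ U₂ (n + 1)) {z : Ch (n + 1) X}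
    {y : Ch n ↥(U₁ ∩ U₂)} (h : Cn U₁ U₂ z y) (hy : Hg y 0) : Hg z 0 := by
  obtain ⟨e₁, e₂, h0, h1, h2⟩ := h.congr (Hg.refl z) hy.symm
  rw [map_zero] at h1 h2
  have h3 := ((a₁.hg (c := e₁) h1).push_zero (PR.inc U₁)).sub
    ((a₂.hg (c := e₂) h2).push_zero (PR.inc U₂))
  rw [sub_zero] at h3
  exact h0.trans h3

/-- the connecting map is well defined -/
theorem Cn.hg_right (h₁ : IsOpen U₁) (h₂ : IsOpen U₂) (hc : U₁ ∪ U₂ = univ) {z : Ch (n + 1) X}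
    {y : Ch n ↥(U₁ ∩ U₂)} (h : Cn U₁ U₂ z y) (hz : Hg z 0) : Hg y 0 := by
  have hy := h.cyc_right
  obtain ⟨e₁, e₂, h0, he₁, he₂⟩ := h
  obtain ⟨w, hw⟩ := (h0.symm.trans hz).exists_bd
  obtain ⟨S, hS⟩ := SD.main X univ U₁ U₂ ⟨U₁, h₁, inter_univ _⟩ ⟨U₂, h₂, inter_univ _⟩
    hc.symm.subset (n + 2) w (mem_univ_con _ _)
  obtain ⟨w₁, hw₁, w₂, hw₂, hww⟩ := Submodule.mem_sup.1 hS
  have h3 : bd (n + 1) w₁ + bd (n + 1) w₂ = push (PR.inc U₁) (n + 1) (S.s _ (n + 1) e₁) -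
      push (PR.inc U₂) (n + 1) (S.s _ (n + 1) e₂) := by
    rw [← map_add, hww, S.s_bd, hw, map_sub, S.s_nat, S.s_nat]
  have h4 : push (PR.inc U₁) (n + 1) (S.s _ (n + 1) e₁) - bd (n + 1) w₁ ∈
      Con (U₁ ∩ U₂) (n + 1) := by
    refine con_inter (sub_mem (PR.push_inc_mem _) (bd_mem hw₁)) ?_
    have : push (PR.inc U₁) (n + 1) (S.s _ (n + 1) e₁) - bd (n + 1) w₁ =
        bd (n + 1) w₂ + push (PR.inc U₂) (n + 1) (S.s _ (n + 1) e₂) := by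
      have h5 := sub_eq_iff_eq_add.1 h3.symm
      rw [h5]
      abel
    rw [this]
    exact add_mem (bd_mem hw₂) (PR.push_inc_mem _)
  obtain ⟨u, hu⟩ := PR.exists_push_inc h4
  refine (hg_sd S hy).trans ⟨u, ?_⟩
  rw [sub_zero]
  apply PR.push_inc_injective n
  rw [← push_bd, hu, map_sub, PR.bd_bd, sub_zero, push_bd, S.s_bd, he₁, ← S.s_nat, push_inc_sub]

/-- vanishing passes from the intersection to the union -/
theorem rz_succ (h₁ : IsOpen U₁) (h₂ : IsOpen U₂) (hc : U₁ ∪ U₂ = univ) (a₁ : RZ U₁ (n + 1))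
    (a₂ : RZ U₂ (n + 1)) (h : RZ ↥(U₁ ∩ U₂) n) : RZ X (n + 1) := by
  intro z hz
  obtain ⟨y, hy⟩ := exists_cn h₁ h₂ hc z hz
  exact (hy.hg_left a₁ a₂ (h.hg hy.cyc_right)).exists_bd

/-- vanishing passes from the union to the intersection -/
theorem rz_inter (h₁ : IsOpen U₁) (h₂ : IsOpen U₂) (hc : U₁ ∪ U₂ = univ) (a₁ : RZ U₁ n)
    (a₂ : RZ U₂ n) (h : RZ X (n + 1)) : RZ ↥(U₁ ∩ U₂) n := by
  intro y hy
  obtain ⟨z, hz⟩ := exists_cn_left a₁ a₂ y hy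
  exact (hz.hg_right h₁ h₂ hc (h.hg hz.cyc_left)).exists_bd

/-- the union of two connected sets with a common point is connected -/
theorem rz_zero (h₁ : IsOpen U₁) (h₂ : IsOpen U₂) (hc : U₁ ∪ U₂ = univ) (a₁ : RZ U₁ 0)
    (a₂ : RZ U₂ 0) {b : X} (hb₁ : b ∈ U₁) (hb₂ : b ∈ U₂) : RZ X 0 := by
  intro z hz
  obtain ⟨S, hS⟩ := SD.main X univ U₁ U₂ ⟨U₁, h₁, inter_univ _⟩ ⟨U₂, h₂, inter_univ _⟩
    hc.symm.subset 0 z (mem_univ_con _ _)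
  obtain ⟨a, ha, w, hw, haw⟩ := Submodule.mem_sup.1 hS
  obtain ⟨e₁, rfl⟩ := PR.exists_push_inc ha
  obtain ⟨e₂, rfl⟩ := PR.exists_push_inc hw
  have h0 : wt 0 e₁ + wt 0 e₂ = 0 := by
    have h1 : wt 0 (S.s X 0 z) = 0 := redCyc_sd S hz
    rwa [← haw, map_add, wt_push, wt_push] at h1
  have h1 := (a₁.hg (c := e₁ - wt 0 e₁ • ksx 0 (⟨b, hb₁⟩ : U₁)) (by
    change wt 0 _ = 0
    rw [map_sub, map_smul, wt_ksx, smul_eq_mul, mul_one, sub_self])).push_zero (PR.inc U₁)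
  have h2 := (a₂.hg (c := e₂ - wt 0 e₂ • ksx 0 (⟨b, hb₂⟩ : U₂)) (by
    change wt 0 _ = 0
    rw [map_sub, map_smul, wt_ksx, smul_eq_mul, mul_one, sub_self])).push_zero (PR.inc U₂)
  have k1 : push (PR.inc U₁) 0 (ksx 0 (⟨b, hb₁⟩ : U₁)) = ksx 0 b := push_single _ _ _ _
  have k2 : push (PR.inc U₂) 0 (ksx 0 (⟨b, hb₂⟩ : U₂)) = ksx 0 b := push_single _ _ _ _
  rw [map_sub, map_smul, k1] at h1
  rw [map_sub, map_smul, k2] at h2
  have h3 := h1.add h2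
  rw [add_zero] at h3
  refine ((hg_sd S hz).trans ((Hg.of_eq ?_).trans h3)).exists_bd
  rw [← haw, eq_neg_of_add_eq_zero_left h0, neg_smul]
  abel

/-- naturality of the connecting relation -/
theorem Cn.map {Y : Type} [TopologicalSpace Y] {W₁ W₂ : Set Y} (f : C(X, Y))
    (g : C(↥(U₁ ∩ U₂), ↥(W₁ ∩ W₂))) (hg : ∀ x, (g x : Y) = f x) (m₁ : MapsTo f U₁ W₁)
    (m₂ : MapsTo f U₂ W₂) {z : Ch (n + 1) X} {y : Ch n ↥(U₁ ∩ U₂)} (h : Cn U₁ U₂ z y) :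
    Cn W₁ W₂ (push f (n + 1) z) (push g n y) := by
  obtain ⟨e₁, e₂, h0, h1, h2⟩ := h
  let f₁ : C(U₁, W₁) := ⟨m₁.restrict, f.continuous.restrict m₁⟩
  let f₂ : C(U₂, W₂) := ⟨m₂.restrict, f.continuous.restrict m₂⟩
  refine ⟨push f₁ (n + 1) e₁, push f₂ (n + 1) e₂, (h0.push f).trans (Hg.of_eq ?_), ?_, ?_⟩
  · rw [map_sub, ← push_comp, ← push_comp, ← push_comp, ← push_comp]
    rfl
  · rw [push_bd, h1, ← push_comp, ← push_comp]
    have : f₁.comp (AD.Freu.sub inter_subset_left) = (AD.Freu.sub inter_subset_left).comp g :=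
      ContinuousMap.ext fun x => Subtype.ext (hg x).symm
    rw [this]
  · rw [push_bd, h2, ← push_comp, ← push_comp]
    have : f₂.comp (AD.Freu.sub inter_subset_right) = (AD.Freu.sub inter_subset_right).comp g :=
      ContinuousMap.ext fun x => Subtype.ext (hg x).symm
    rw [this]

end Vale.Agent.P263B90
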