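import Vale.Agent.P263B90.Two
import Vale.Agent.P263B15.Defs

/-!
# The homology of a suspension
-/

open Topology Set Vale.Agent.P246.T Vale.Agent.P246.T.FM Vale.Agent.P263.AD.Freu
open Vale.Agent.P263B15

namespace Vale.Agent.P263B90

variable {A B : Type} [TopologicalSpace A] [TopologicalSpace B] {a₀ : A} {b : B} {n : ℕ}

/-- the suspension relation between the cycles of `B` and of `A` -/
def Sr (S : SuspData A B a₀ b) (z : Ch (n + 1) B) (y : Ch n A) : Prop :=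
  RedCyc n y ∧ Cn S.V₁ S.V₂ z (push S.i n y)

variable (S : SuspData A B a₀ b)

theorem hg_i {y : Ch n A} (hy : RedCyc n y) (h : Hg (push S.i n y) 0) : Hg y 0 := by
  have h1 := h.push_zero S.r
  rw [← push_comp] at h1
  have h2 := hg_of_homotopic S.ri hy
  rw [push_id] at h2
  exact h2.symm.trans h1

theorem hg_ir {y : Ch n ↥(S.V₁ ∩ S.V₂)} (hy : RedCyc n y) :
    Hg (push S.i n (push S.r n y)) y := by
  have h2 := hg_of_homotopic S.ir hy
  rwa [push_id, push_comp] at h2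

theorem exists_sr (z : Ch (n + 1) B) (hz : RedCyc (n + 1) z) : ∃ y, Sr S z y := by
  obtain ⟨y, hy⟩ := exists_cn S.o₁ S.o₂ S.cov z hz
  exact ⟨push S.r n y, redCyc_push _ hy.cyc_right, hy.congr (Hg.refl z) (hg_ir S hy.cyc_right)⟩

theorem exists_sr_left (y : Ch n A) (hy : RedCyc n y) : ∃ z, Sr S z y := by
  obtain ⟨z, hz⟩ := exists_cn_left (contr_rz S.c₁ S.m₁ n) (contr_rz S.c₂ S.m₂ n) _
    (redCyc_push S.i hy)
  exact ⟨z, hy, hz⟩

variable {S}

theorem Sr.cyc_left {z : Ch (n + 1) B} {y : Ch n A} (h : Sr S z y) : RedCyc (n + 1) z :=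
  h.2.cyc_left

theorem Sr.iff {z : Ch (n + 1) B} {y : Ch n A} (h : Sr S z y) : Hg z 0 ↔ Hg y 0 :=
  ⟨fun hz => hg_i S h.1 (h.2.hg_right S.o₁ S.o₂ S.cov hz), fun hy =>
    h.2.hg_left (contr_rz S.c₁ S.m₁ _) (contr_rz S.c₂ S.m₂ _) (hy.push_zero S.i)⟩

theorem Sr.sub {z z' : Ch (n + 1) B} {y y' : Ch n A} (h : Sr S z y) (h' : Sr S z' y') :
    Sr S (z - z') (y - y') :=
  ⟨h.1.sub h'.1, by rw [map_sub]; exact h.2.sub h'.2⟩

theorem Sr.add {z z' : Ch (n + 1) B} {y y' : Ch n A} (h : Sr S z y) (h' : Sr S z' y') :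
    Sr S (z + z') (y + y') :=
  ⟨redCyc_add h.1 h'.1, by rw [map_add]; exact h.2.add h'.2⟩

theorem Sr.smul {z : Ch (n + 1) B} {y : Ch n A} (h : Sr S z y) (m : ℤ) :
    Sr S (m • z) (m • y) :=
  ⟨h.1.smul m, by rw [map_smul]; exact h.2.smul m⟩

theorem hg_iff_sub {X : Type} [TopologicalSpace X] {c c' : Ch n X} : Hg c c' ↔ Hg (c - c') 0 := by
  unfold Hg
  rw [sub_zero]

theorem Sr.iff₂ {z z' : Ch (n + 1) B} {y y' : Ch n A} (h : Sr S z y) (h' : Sr S z' y') :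
    Hg z z' ↔ Hg y y' := by
  rw [hg_iff_sub, hg_iff_sub (c := y)]
  exact (h.sub h').iff

variable (S)
include S

theorem susp_rz_zero : RZ B 0 := rz_two_zero S.c₁ S.c₂ S.o₁ S.o₂ S.cov S.m₁ S.m₂

theorem susp_rz_succ : RZ B (n + 1) ↔ RZ A n := by
  constructor
  · intro h y hy
    obtain ⟨z, hz⟩ := exists_sr_left S y hy
    exact (hz.iff.1 (h.hg hz.cyc_left)).exists_bd
  · intro h z hz
    obtain ⟨y, hy⟩ := exists_sr S z hz
    exact (hy.iff.2 (h.hg hy.1)).exists_bd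

theorem susp_rz {N : ℕ} (h : ∀ k < N, RZ A k) : ∀ k < N + 1, RZ B k := by
  rintro (_ | k) hk
  · exact susp_rz_zero S
  · exact (susp_rz_succ S).2 (h k (by omega))

theorem susp_rz_inter : RZ ↥(S.V₁ ∩ S.V₂) n ↔ RZ A n :=
  ⟨RZ.of_retract S.ri, RZ.of_retract S.ir⟩

theorem susp_h2 : H2 B (n + 1) ↔ H2 A n := by
  constructor
  · intro h y y' hy hy'
    obtain ⟨z, hz⟩ := exists_sr_left S y hy
    obtain ⟨z', hz'⟩ := exists_sr_left S y' hy'
    exact (h z z' hz.cyc_left hz'.cyc_left).imp hz.iff.1 (Or.imp hz'.iff.1 (hz.iff₂ hz').1)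
  · intro h z z' hz hz'
    obtain ⟨y, hy⟩ := exists_sr S z hz
    obtain ⟨y', hy'⟩ := exists_sr S z' hz'
    exact (h y y' hy.1 hy'.1).imp hy.iff.2 (Or.imp hy'.iff.2 (hy.iff₂ hy').2)

theorem susp_pc : PathConnectedSpace B := pc_two S.c₁ S.c₂ S.cov

theorem susp_pc_inter [PathConnectedSpace A] : PathConnectedSpace ↥(S.V₁ ∩ S.V₂) :=
  pc_of_dom S.i S.r S.ir

theorem susp_sc [PathConnectedSpace A] : SimplyConnectedSpace B :=
  have := susp_pc_inter S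
  sc_two S.c₁ S.c₂ S.o₁ S.o₂ S.cov S.m₁ S.m₂

/-- the map to the loop space of the suspension, on homology -/
theorem susp_relZ (N : ℕ) (h : ∀ k < N, RZ A k) (hn : n < 2 * N) : RelZ S.j n :=
  ((relZ_clut S.c₁ S.c₂ S.o₁ S.o₂ S.cov S.m₁ S.m₂ N (fun k hk => (susp_rz_inter S).2 (h k hk))
    hn).comp S.i S.r S.ir S.ri).congr S.cl

end Vale.Agent.P263B90
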