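import Vale.Agent.P263B90.MV
import Vale.Agent.P178.H948.VK

/-!
# Unions of two contractible open sets
-/

open Topology Set Vale.Agent.P246.T Vale.Agent.P246.T.FM Vale.Agent.P263.AD.Freu

namespace Vale.Agent.P263B90

variable {B : Type} [TopologicalSpace B] {b : B} {V V₁ V₂ : Set B} {n : ℕ}

/-- the contraction as a homotopy of the subspace -/
def cH (c : Contr V b) : C(I × V, V) :=
  ⟨fun q => ⟨c.h q, c.mem q⟩, c.h.continuous.subtype_mk _⟩

theorem contr_rz (c : Contr V b) (hb : b ∈ V) (n : ℕ) : RZ V n :=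
  rz_of_contr (⟨b, hb⟩ : V) (cH c) (fun x => Subtype.ext (c.zero x)) (fun x => Subtype.ext (c.one x)) n

theorem contr_contractible (c : Contr V b) (hb : b ∈ V) : ContractibleSpace V :=
  (contractible_iff_id_nullhomotopic V).2 ⟨⟨b, hb⟩, ⟨⟨cH c, fun x => Subtype.ext (c.zero x),
    fun x => Subtype.ext (c.one x)⟩⟩⟩

theorem paths_homotopic [SimplyConnectedSpace V] {x y : B} (p q : Path x y) (hp : range p ⊆ V)
    (hq : range q ⊆ V) : p.Homotopic q := by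
  have hx : x ∈ V := hp ⟨0, p.source⟩
  have hy : y ∈ V := hp ⟨1, p.target⟩
  let p' : Path (⟨x, hx⟩ : V) ⟨y, hy⟩ :=
    ⟨⟨fun t => ⟨p t, hp ⟨t, rfl⟩⟩, p.continuous.subtype_mk _⟩, Subtype.ext p.source,
      Subtype.ext p.target⟩
  let q' : Path (⟨x, hx⟩ : V) ⟨y, hy⟩ :=
    ⟨⟨fun t => ⟨q t, hq ⟨t, rfl⟩⟩, q.continuous.subtype_mk _⟩, Subtype.ext q.source,
      Subtype.ext q.target⟩
  exact (SimplyConnectedSpace.paths_homotopic p' q').map (PR.inc V)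

/-- **van Kampen**: two simply connected open sets with path connected intersection -/
theorem sc_union (h₁ : IsOpen V₁) (h₂ : IsOpen V₂) (hc : V₁ ∪ V₂ = univ)
    [SimplyConnectedSpace V₁] [SimplyConnectedSpace V₂] [PathConnectedSpace ↥(V₁ ∩ V₂)] :
    SimplyConnectedSpace B := by
  obtain ⟨⟨b, hb⟩⟩ : Nonempty ↥(V₁ ∩ V₂) := inferInstance
  have key : ∀ (W : Set B) [PathConnectedSpace W], b ∈ W → ∀ x ∈ W,
      ∃ δ : Path b x, range δ ⊆ W := by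
    intro W _ hbW x hx
    obtain ⟨γ⟩ := PathConnectedSpace.joined (⟨b, hbW⟩ : W) ⟨x, hx⟩
    refine ⟨γ.map continuous_subtype_val, ?_⟩
    rintro _ ⟨t, rfl⟩
    exact (γ t).2
  refine P178.H948.simplyConnected_of_cover (fun i : Bool => bif i then V₁ else V₂) ?_ ?_ b ?_ ?_
  · rintro (_ | _)
    · exact h₂
    · exact h₁
  · intro x
    rcases (hc.symm.subset (mem_univ x) : x ∈ V₁ ∪ V₂) with h | h
    · exact ⟨true, h⟩
    · exact ⟨false, h⟩
  · intro x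
    by_cases k₁ : x ∈ V₁
    · by_cases k₂ : x ∈ V₂
      · obtain ⟨δ, hδ⟩ := key (V₁ ∩ V₂) hb x ⟨k₁, k₂⟩
        refine ⟨δ, ?_⟩
        rintro (_ | _) _
        · exact hδ.trans inter_subset_right
        · exact hδ.trans inter_subset_left
      · obtain ⟨δ, hδ⟩ := key V₁ hb.1 x k₁
        refine ⟨δ, ?_⟩
        rintro (_ | _) h
        · exact absurd h k₂
        · exact hδ
    · have k₂ : x ∈ V₂ := (hc.symm.subset (mem_univ x) : x ∈ V₁ ∪ V₂).resolve_left k₁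
      obtain ⟨δ, hδ⟩ := key V₂ hb.2 x k₂
      refine ⟨δ, ?_⟩
      rintro (_ | _) h
      · exact hδ
      · exact absurd h k₁
  · rintro (_ | _) x y p q hp hq
    · exact paths_homotopic (V := V₂) p q hp hq
    · exact paths_homotopic (V := V₁) p q hp hq

theorem sc_two (c₁ : Contr V₁ b) (c₂ : Contr V₂ b) (h₁ : IsOpen V₁) (h₂ : IsOpen V₂)
    (hc : V₁ ∪ V₂ = univ) (hb₁ : b ∈ V₁) (hb₂ : b ∈ V₂) [PathConnectedSpace ↥(V₁ ∩ V₂)] :
    SimplyConnectedSpace B := by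
  have := contr_contractible c₁ hb₁
  have := contr_contractible c₂ hb₂
  exact sc_union h₁ h₂ hc

/-- a space dominated by a path connected space is path connected -/
theorem pc_of_dom {K W : Type} [TopologicalSpace K] [TopologicalSpace W] [PathConnectedSpace K]
    (i : C(K, W)) (r : C(W, K)) (h : (i.comp r).Homotopic (ContinuousMap.id W)) :
    PathConnectedSpace W := by
  obtain ⟨H⟩ := h
  obtain ⟨k⟩ : Nonempty K := inferInstance
  refine ⟨⟨i k⟩, fun x y => ?_⟩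
  obtain ⟨γ⟩ := PathConnectedSpace.joined (r x) (r y)
  exact ⟨((H.evalAt x).symm.trans (γ.map i.continuous)).trans (H.evalAt y)⟩

theorem pc_two (c₁ : Contr V₁ b) (c₂ : Contr V₂ b) (hc : V₁ ∪ V₂ = univ) :
    PathConnectedSpace B := by
  have key : ∀ {W : Set B} (c : Contr W b) (x : B), x ∈ W → Joined x b := fun c x hx =>
    ⟨⟨⟨fun t => c.h (t, ⟨x, hx⟩), by fun_prop⟩, c.zero _, c.one _⟩⟩
  have hj : ∀ x, Joined x b := fun x =>
    (hc.symm.subset (mem_univ x) : x ∈ V₁ ∪ V₂).elim (key c₁ x) (key c₂ x)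
  exact ⟨⟨b⟩, fun x y => (hj x).trans (hj y).symm⟩

theorem rz_two_zero (c₁ : Contr V₁ b) (c₂ : Contr V₂ b) (h₁ : IsOpen V₁) (h₂ : IsOpen V₂)
    (hc : V₁ ∪ V₂ = univ) (hb₁ : b ∈ V₁) (hb₂ : b ∈ V₂) : RZ B 0 :=
  rz_zero h₁ h₂ hc (contr_rz c₁ hb₁ 0) (contr_rz c₂ hb₂ 0) hb₁ hb₂

theorem rz_two_succ (c₁ : Contr V₁ b) (c₂ : Contr V₂ b) (h₁ : IsOpen V₁) (h₂ : IsOpen V₂)
    (hc : V₁ ∪ V₂ = univ) (hb₁ : b ∈ V₁) (hb₂ : b ∈ V₂) :
    RZ B (n + 1) ↔ RZ ↥(V₁ ∩ V₂) n :=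
  ⟨rz_inter h₁ h₂ hc (contr_rz c₁ hb₁ n) (contr_rz c₂ hb₂ n),
    rz_succ h₁ h₂ hc (contr_rz c₁ hb₁ (n + 1)) (contr_rz c₂ hb₂ (n + 1))⟩

end Vale.Agent.P263B90
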