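import Vale.Agent.P263B90.Row

/-!
# The stable group has at most two elements: assembly
-/

open Topology Set OnePoint

namespace Vale.Agent.P263B90

open Vale.Agent.P246.T Vale.Agent.P246.T.FM Vale.Agent.P263.AD.Freu Vale.Agent.P263B15
open Vale.Agent.P251.G.LC (smash smash_infty_left smash_infty_right smash_coe_coe)

section transport

variable {X Y : Type} [TopologicalSpace X] [TopologicalSpace Y] {n : ℕ}

theorem h2_of_retract {f : C(X, Y)} {g : C(Y, X)}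
    (h : (g.comp f).Homotopic (ContinuousMap.id X)) (hY : H2 Y n) : H2 X n := by
  intro c c' hc hc'
  have key : ∀ z : Ch n X, RedCyc n z → Hg z (push g n (push f n z)) := by
    intro z hz
    have h2 := hg_of_homotopic h hz
    rw [push_id, push_comp] at h2
    exact h2.symm
  rcases hY _ _ (redCyc_push f hc) (redCyc_push f hc') with h1 | h1 | h1
  · exact Or.inl ((key c hc).trans (h1.push_zero g))
  · exact Or.inr (Or.inl ((key c' hc').trans (h1.push_zero g)))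
  · exact Or.inr (Or.inr ((key c hc).trans ((h1.push g).trans (key c' hc').symm)))

theorem two_of_homeo (h : X ≃ₜ Y) {x₀ : X} {y₀ : Y} (h0 : h x₀ = y₀) (hX : Two X x₀ n) :
    Two Y y₀ n := by
  intro f g hf hg
  have e : ∀ k : C(Sp n, Y), (h : C(X, Y)).comp ((h.symm : C(Y, X)).comp k) = k := fun k =>
    ContinuousMap.ext fun x => h.apply_symm_apply (k x)
  have e0 : (h : C(X, Y)).comp (ContinuousMap.const (Sp n) x₀) = ContinuousMap.const _ y₀ :=
    ContinuousMap.ext fun _ => h0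
  have hs : h.symm y₀ = x₀ := by rw [← h0, h.symm_apply_apply]
  rcases hX ((h.symm : C(Y, X)).comp f) ((h.symm : C(Y, X)).comp g)
    ((congrArg h.symm hf).trans hs) ((congrArg h.symm hg).trans hs) with h1 | h1 | h1
  · have h2 := h1.comp_continuousMap (h : C(X, Y))
    rw [e, e0] at h2
    exact Or.inl h2
  · have h2 := h1.comp_continuousMap (h : C(X, Y))
    rw [e, e0] at h2
    exact Or.inr (Or.inl h2)
  · have h2 := h1.comp_continuousMap (h : C(X, Y))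
    rw [e, e] at h2
    exact Or.inr (Or.inr h2)

theorem rz_of_homeo (h : X ≃ₜ Y) (hX : RZ X n) : RZ Y n :=
  RZ.of_retract (f := (h.symm : C(Y, X))) (g := (h : C(X, Y))) (by
    have e : (h : C(X, Y)).comp (h.symm : C(Y, X)) = ContinuousMap.id Y :=
      ContinuousMap.ext fun x => h.apply_symm_apply x
    rw [e]) hX

theorem sc_of_homeo (h : X ≃ₜ Y) (hX : SimplyConnectedSpace X) : SimplyConnectedSpace Y :=
  h.symm.toHomotopyEquiv.simplyConnectedSpace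

end transport

/-- the change of coordinates for the first suspension -/
theorem exists_e1 : ∃ e : (ℝ × ℝ) ≃L[ℝ] ((Fin 1 → ℝ) × ℝ), ∀ x, (e x).2 = x.1 := by
  have h : Module.finrank ℝ ℝ = Module.finrank ℝ (Fin 1 → ℝ) := by simp
  exact ⟨(ContinuousLinearEquiv.prodComm ℝ ℝ ℝ).trans
    ((ContinuousLinearEquiv.ofFinrankEq h).prodCongr (ContinuousLinearEquiv.refl ℝ ℝ)),
    fun _ => rfl⟩

/-- the change of coordinates for the higher suspensions -/
theorem exists_eS (n : ℕ) : ∃ e : (((Fin n → ℝ) × ℝ) × ℝ) ≃L[ℝ] ((Fin (n + 1) → ℝ) × ℝ),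
    ∀ x, (e x).2 = x.1.2 := by
  have h : Module.finrank ℝ ((Fin n → ℝ) × ℝ) = Module.finrank ℝ (Fin (n + 1) → ℝ) := by simp
  exact ⟨(((ContinuousLinearEquiv.prodAssoc ℝ (Fin n → ℝ) ℝ ℝ).trans
    ((ContinuousLinearEquiv.refl ℝ (Fin n → ℝ)).prodCongr
      (ContinuousLinearEquiv.prodComm ℝ ℝ ℝ))).trans
    (ContinuousLinearEquiv.prodAssoc ℝ (Fin n → ℝ) ℝ ℝ).symm).trans
    ((ContinuousLinearEquiv.ofFinrankEq h).prodCongr (ContinuousLinearEquiv.refl ℝ ℝ)),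
    fun _ => rfl⟩

/-- the first suspension -/
theorem two_one (susp : SUSP) (looph : LOOPH) (whisk : WHISK) (evm : EV) (fib : FIB) (mvh : MVH)
    (hurw : HUR) (lift : LIFT) (Z : Type) [TopologicalSpace Z] (z₀ : Z) (q : ℕ) (hq : 1 ≤ q)
    (hsc : SimplyConnectedSpace Z) (hrz : ∀ j ≤ q, RZ Z j) (hh : H2 Z (q + 1))
    (hpn : PN Z z₀ (2 * q + 1)) :
    SimplyConnectedSpace
      (Su ((ContinuousLinearMap.id ℝ ℝ).comp (ContinuousLinearMap.fst ℝ ℝ ℝ)) (kL z₀)) ∧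
    (∀ j < q + 1,
      RZ (Su ((ContinuousLinearMap.id ℝ ℝ).comp (ContinuousLinearMap.fst ℝ ℝ ℝ)) (kL z₀)) j) ∧
    Two (Su ((ContinuousLinearMap.id ℝ ℝ).comp (ContinuousLinearMap.fst ℝ ℝ ℝ)) (kL z₀))
      (Su.inf _ _) (2 * q + 1) := by
  obtain ⟨pcK, rzK, h2K⟩ := looph Z z₀ q hq hsc hrz hh
  obtain ⟨κ, σ, κ0, κ1, κσ, σκ⟩ := whisk (Lp z₀) (kL z₀)
  obtain ⟨D, hD⟩ := susp ℝ (Lp z₀) (ContinuousLinearMap.id ℝ ℝ) (kL z₀)
  obtain ⟨e, ρ, ρ0, ρ1, e0, e1⟩ := evm Z z₀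
  have pcA := pc_of_dom σ κ σκ
  have rzA : ∀ j < q, RZ (Su (ContinuousLinearMap.id ℝ ℝ) (kL z₀)) j := fun j hj =>
    RZ.of_retract σκ (rzK j hj)
  have h2A := h2_of_retract σκ h2K
  have hev : ∀ a t, e ((D.j a).1.1 t) = (κ a).1.1 (ρ t) := by
    intro a t
    obtain ⟨h1, h2⟩ := hD a t
    rcases Su.cases a with rfl | ⟨x, k, hk, rfl⟩
    · have h3 : (D.j (Su.inf _ _)).1.1 t = Su.inf _ _ := Su.eq_inf (h1.trans (smash_infty_left _))
      rw [h3, e0, κ0]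
      rfl
    · rw [κ1]
      by_cases hp : ps t = ∞
      · have h3 : (D.j (Su.mk _ _ x k hk)).1.1 t = Su.inf _ _ :=
          Su.eq_inf (h1.trans (by rw [hp, smash_infty_right]))
        rw [h3, e0]
        rcases ps_eq_infty hp with rfl | rfl
        · rw [ρ0]
          exact k.1.2.symm
        · rw [ρ1]
          exact (show ev z₀ k.1 = z₀ from k.2).symm
      · obtain ⟨τ, hτ⟩ := OnePoint.ne_infty_iff_exists.1 hp
        have h4 : ((D.j (Su.mk _ _ x k hk)).1.1 t).1.1 = (((x, τ) : ℝ × ℝ) : OnePoint (ℝ × ℝ)) :=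
          h1.trans (by rw [← hτ]; rfl)
        have h3 : (D.j (Su.mk _ _ x k hk)).1.1 t = Su.mk _ (kL z₀) (x, τ) k hk :=
          Su.ext h4 h2
        rw [h3]
        exact e1 x τ t k hk hτ.symm
  obtain ⟨M⟩ := fib _ _ Z _ _ z₀ D e κ σ ρ e0 ρ0 ρ1 κσ σκ hev pcK
  obtain ⟨scF, rzF, h2F⟩ := mvh _ _ _ (kL z₀) q hq M pcK (susp_pc_inter D) rzK
    (fun j hj => (susp_rz_inter D).2 (rzA j hj)) h2K (h2_of_retract D.ir h2A)
  obtain ⟨p, rfl⟩ : ∃ p, q = p + 1 := ⟨q - 1, by omega⟩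
  have h5 : Two (Fb e z₀) (Fb.pt e0) (2 * (p + 1) + 1) :=
    hurw _ (Fb.pt e0) (2 * p + 1) scF (fun j hj => rzF j (by omega)) h2F
  exact ⟨susp_sc D, susp_rz D rzA, lift _ Z e _ z₀ e0 _ hpn h5⟩

/-- **the stable group has at most two elements** -/
theorem two (susp : SUSP) (homeo : HOMEO) (loopsc : LOOPSC) (adj : ADJ) (freu : FREU)
    (looph : LOOPH) (whisk : WHISK) (evm : EV) (fib : FIB) (mvh : MVH) (hurw : HUR)
    (lift : LIFT) : TWO := by
  intro Z _ z₀ q hq hsc hrz hh hpn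
  have key : ∀ n : ℕ, SimplyConnectedSpace (SuN (n + 1) (kL z₀)) ∧
      (∀ j < q + (n + 1), RZ (SuN (n + 1) (kL z₀)) j) ∧
      Two (SuN (n + 1) (kL z₀)) (Su.inf _ _) (2 * q + (n + 1)) := by
    intro n
    induction n with
    | zero =>
      obtain ⟨h1, h2, h3⟩ := two_one susp looph whisk evm fib mvh hurw lift Z z₀ q hq hsc hrz hh hpn
      obtain ⟨e, he⟩ := exists_e1
      obtain ⟨h, h0⟩ := homeo _ _ (Lp z₀)
        ((ContinuousLinearMap.id ℝ ℝ).comp (ContinuousLinearMap.fst ℝ ℝ ℝ))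
        (ContinuousLinearMap.snd ℝ (Fin 1 → ℝ) ℝ) (kL z₀) e he
      exact ⟨sc_of_homeo h h1, fun j hj => rz_of_homeo h (h2 j hj), two_of_homeo h h0 h3⟩
    | succ n ih =>
      obtain ⟨h1, h2, h3⟩ := ih
      obtain ⟨D, -⟩ := susp ((Fin (n + 1) → ℝ) × ℝ) (Lp z₀)
        (ContinuousLinearMap.snd ℝ (Fin (n + 1) → ℝ) ℝ) (kL z₀)
      have s1 := susp_sc D
      have s2 := susp_rz D h2
      have s3 := adj _ _ _ (freu _ _ _ _ D (q + (n + 1)) (2 * q + (n + 1)) h1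
        (loopsc _ _ s1 (s2 2 (by omega))) h2 (by omega) (by omega) h3)
      obtain ⟨e, he⟩ := exists_eS (n + 1)
      obtain ⟨h, h0⟩ := homeo _ _ (Lp z₀)
        ((ContinuousLinearMap.snd ℝ (Fin (n + 1) → ℝ) ℝ).comp
          (ContinuousLinearMap.fst ℝ ((Fin (n + 1) → ℝ) × ℝ) ℝ))
        (ContinuousLinearMap.snd ℝ (Fin (n + 1 + 1) → ℝ) ℝ) (kL z₀) e he
      exact ⟨sc_of_homeo h s1, fun j hj => rz_of_homeo h (s2 j hj), two_of_homeo h h0 s3⟩
  intro n hn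
  obtain ⟨n, rfl⟩ : ∃ m, n = m + 1 := ⟨n - 1, by omega⟩
  exact (key n).2.2

end Vale.Agent.P263B90
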